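import Mathlib
import Vale.Agent.P097.LR.EDefs
import Vale.Agent.P097.H407.Hol

/-! # P097 / H807 : the elliptic function of the leaves on the real line and the imaginary axis

Abstract version: `E` is a holomorphic function on the strip `-b < Im t < 3 b` with the
properties of `Et b` for a real `b > 0`. -/

set_option linter.all false

open scoped Topology ComplexConjugate
open Filter Set

namespace Vale.Agent.P097.H807

open Complex

/-- the properties of `Et b`, `b > 0`, used below -/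
structure Fn (b : ℝ) (E : ℂ → ℂ) : Prop where
  hb : 0 < b
  diff : DifferentiableOn ℂ E {t : ℂ | -b < t.im ∧ t.im < 3 * b}
  half : ∀ t, E (t + 1 / 2) = - E t
  inv : ∀ t : ℂ, -b < t.im → t.im < b → E (-t) * E t = 1
  cj : ∀ t : ℂ, -b < t.im → t.im < b → conj (E t) * E (conj t) = 1
  zero : ∀ t : ℂ, -b < t.im → t.im < 3 * b → (E t = 0 ↔ ∃ k : ℤ, t = I * b + k / 2)
  one : E 0 = 1
  ne : deriv E (I * b) ≠ 0
  ode : ∀ t : ℂ, -b < t.im → t.im < 3 * b → deriv E t ^ 2 =
    (deriv E 0 ^ 2 - 2 * deriv E (I * b) ^ 2) * E t ^ 2 + deriv E (I * b) ^ 2 * (1 + E t ^ 4)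

theorem isOpen_S (b : ℝ) : IsOpen {t : ℂ | -b < t.im ∧ t.im < 3 * b} :=
  (isOpen_lt continuous_const Complex.continuous_im).inter
    (isOpen_lt Complex.continuous_im continuous_const)

theorem convex_S (b : ℝ) : Convex ℝ {t : ℂ | -b < t.im ∧ t.im < 3 * b} :=
  (convex_halfSpace_im_gt (r := -b)).inter (convex_halfSpace_im_lt (r := 3 * b))

namespace Fn

variable {b : ℝ} {E : ℂ → ℂ} (H : Fn b E)

include H

theorem hd {t : ℂ} (h1 : -b < t.im) (h2 : t.im < 3 * b) : HasDerivAt E (deriv E t) t :=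
  (H.diff.differentiableAt ((isOpen_S b).mem_nhds ⟨h1, h2⟩)).hasDerivAt

theorem cd : ContinuousOn (deriv E) {t : ℂ | -b < t.im ∧ t.im < 3 * b} :=
  (H.diff.deriv (isOpen_S b)).continuousOn

theorem hr (x : ℝ) : HasDerivAt (fun x : ℝ => E x) (deriv E x) x :=
  (H.hd (t := x) (by simpa using H.hb) (by simpa using H.hb)).comp_ofReal

theorem hi {y : ℝ} (h1 : -b < y) (h2 : y < 3 * b) :
    HasDerivAt (fun y : ℝ => E (I * y)) (I * deriv E (I * y)) y := by
  have h3 : HasDerivAt (fun y : ℝ => I * (y : ℂ)) I y := by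
    simpa using ((hasDerivAt_id (y : ℂ)).const_mul I).comp_ofReal
  have h4 : HasDerivAt E (deriv E (I * y)) (I * y) := H.hd (by simpa using h1) (by simpa using h2)
  have h5 := h4.comp y h3
  rw [mul_comm] at h5
  exact h5

theorem uni (x : ℝ) : conj (E x) * E x = 1 := by
  have := H.cj x (by simpa using H.hb) (by simpa using H.hb)
  rwa [Complex.conj_ofReal] at this

theorem ne0 (x : ℝ) : E x ≠ 0 := fun h => by
  have := H.uni x
  rw [h, mul_zero] at this
  exact zero_ne_one this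

theorem normSq1 (x : ℝ) : (E x).re ^ 2 + (E x).im ^ 2 = 1 := by
  have h := H.uni x
  rw [mul_comm, Complex.mul_conj, Complex.normSq_apply] at h
  have h2 : ((E x).re * (E x).re + (E x).im * (E x).im : ℝ) = 1 := by exact_mod_cast h
  linarith only [h2, sq (E x).re, sq (E x).im]

theorem norm1 (x : ℝ) : ‖E x‖ = 1 := by
  have h := H.uni x
  have h2 : ‖conj (E x) * E x‖ = 1 := by rw [h, norm_one]
  rw [norm_mul, Complex.norm_conj] at h2
  nlinarith [norm_nonneg (E x)]

theorem hre (x : ℝ) : HasDerivAt (fun x : ℝ => (E x).re) (deriv E x).re x := by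
  exact Complex.reCLM.hasFDerivAt.comp_hasDerivAt x (H.hr x)

theorem him (x : ℝ) : HasDerivAt (fun x : ℝ => (E x).im) (deriv E x).im x := by
  exact Complex.imCLM.hasFDerivAt.comp_hasDerivAt x (H.hr x)

end Fn

/-- the angular velocity -/
noncomputable def vel (E : ℂ → ℂ) (x : ℝ) : ℝ := (deriv E x * conj (E x)).im

namespace Fn

variable {b : ℝ} {E : ℂ → ℂ} (H : Fn b E)

include H

theorem de (x : ℝ) : deriv E x = I * vel E x * E x := by
  have h1 : (E x).re * (deriv E x).re + (E x).im * (deriv E x).im = 0 := by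
    have h2 : HasDerivAt (fun x : ℝ => (E x).re * (E x).re + (E x).im * (E x).im)
        ((deriv E x).re * (E x).re + (E x).re * (deriv E x).re +
          ((deriv E x).im * (E x).im + (E x).im * (deriv E x).im)) x :=
      ((H.hre x).mul (H.hre x)).add ((H.him x).mul (H.him x))
    have h3 : (fun x : ℝ => (E x).re * (E x).re + (E x).im * (E x).im) = fun _ => (1 : ℝ) := by
      funext y
      have := H.normSq1 y
      linarith only [this, sq (E y).re, sq (E y).im]
    rw [h3] at h2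
    have h4 := h2.unique (hasDerivAt_const x (1 : ℝ))
    linarith only [h4]
  have h5 : deriv E x * conj (E x) = I * vel E x := by
    apply Complex.ext
    · simp [vel]
      linarith only [h1]
    · simp [vel]
  calc deriv E x = deriv E x * (conj (E x) * E x) := by rw [H.uni, mul_one]
    _ = (deriv E x * conj (E x)) * E x := by ring
    _ = _ := by rw [h5]

theorem cont_real : Continuous fun x : ℝ => E x :=
  continuous_iff_continuousAt.2 fun x => (H.hr x).continuousAt

theorem cont_dreal : Continuous fun x : ℝ => deriv E x := by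
  refine H.cd.comp_continuous (by fun_prop) fun x => ?_
  have := H.hb
  exact ⟨by simpa using this, by simpa using this⟩

theorem cont_vel : Continuous (vel E) :=
  Complex.continuous_im.comp (H.cont_dreal.mul (Complex.continuous_conj.comp H.cont_real))

/-- the value at `0` -/
theorem d0 : deriv E 0 = I * vel E 0 := by
  have := H.de 0
  rw [Complex.ofReal_zero, H.one, mul_one] at this
  exact this

theorem re_axis {y : ℝ} (h1 : -b < y) (h2 : y < b) : E (I * y) = ((E (I * y)).re : ℂ) := by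
  have e1 := H.cj (I * y) (by simpa using h1) (by simpa using h2)
  have e2 := H.inv (I * y) (by simpa using h1) (by simpa using h2)
  have e3 : conj (I * (y : ℂ)) = -(I * y) := by
    rw [map_mul, Complex.conj_I, Complex.conj_ofReal]; ring
  rw [e3] at e1
  have e4 : E (-(I * y)) ≠ 0 := fun h => by
    rw [h, zero_mul] at e2
    exact zero_ne_one e2
  have e5 : conj (E (I * y)) = E (I * y) := by
    apply mul_right_cancel₀ e4
    rw [e1, mul_comm (E (I * y)), e2]
  exact (Complex.conj_eq_iff_re.1 e5).symm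

theorem im_axis {y : ℝ} (h1 : -b < y) (h2 : y < b) : (I * deriv E (I * y)).im = 0 := by
  have e1 : HasDerivAt (fun y : ℝ => (E (I * y)).im) (I * deriv E (I * y)).im y := by
    exact Complex.imCLM.hasFDerivAt.comp_hasDerivAt y (H.hi h1 (by linarith [H.hb]))
  have e2 : HasDerivAt (fun y : ℝ => (E (I * y)).im) 0 y := by
    refine (hasDerivAt_const y (0 : ℝ)).congr_of_eventuallyEq ?_
    filter_upwards [Ioo_mem_nhds h1 h2] with z hz
    rw [H.re_axis hz.1 hz.2, Complex.ofReal_im]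
  exact e1.unique e2

theorem cont_axis : ContinuousOn (fun y : ℝ => I * deriv E (I * y)) (Ioo (-b) (3 * b)) := by
  refine continuousOn_const.mul (H.cd.comp (by fun_prop) fun y hy => ?_)
  exact ⟨by simpa using hy.1, by simpa using hy.2⟩

/-- the derivative at the isotropic point is imaginary -/
theorem im_b : (I * deriv E (I * b)).im = 0 := by
  have hb := H.hb
  have h1 : ContinuousAt (fun y : ℝ => (I * deriv E (I * y)).im) b :=
    Complex.continuous_im.continuousAt.comp
      (H.cont_axis.continuousAt (Ioo_mem_nhds (by linarith) (by linarith)))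
  have h2 : Tendsto (fun y : ℝ => (I * deriv E (I * y)).im) (𝓝[<] b)
      (𝓝 (I * deriv E (I * b)).im) := h1.tendsto.mono_left nhdsWithin_le_nhds
  have h3 : Tendsto (fun y : ℝ => (I * deriv E (I * y)).im) (𝓝[<] b) (𝓝 0) := by
    refine tendsto_const_nhds.congr' ?_
    filter_upwards [Ioo_mem_nhdsLT (show -b < b by linarith)] with z hz
    exact (H.im_axis hz.1 hz.2).symm
  exact tendsto_nhds_unique h2 h3

end Fn

/-- the derivative along the axis at the isotropic point -/
noncomputable def rad1 (b : ℝ) (E : ℂ → ℂ) : ℝ := (I * deriv E (I * b)).re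

namespace Fn

variable {b : ℝ} {E : ℂ → ℂ} (H : Fn b E)

include H

theorem d1 : I * deriv E (I * b) = rad1 b E := by
  apply Complex.ext
  · simp [rad1]
  · rw [H.im_b, Complex.ofReal_im]

theorem d1sq : deriv E (I * b) ^ 2 = -(rad1 b E : ℂ) ^ 2 := by
  rw [← H.d1, mul_pow, Complex.I_sq]; ring

theorem rad1_ne : rad1 b E ≠ 0 := fun h => by
  have := H.d1
  rw [h, Complex.ofReal_zero] at this
  exact H.ne ((mul_eq_zero.1 this).resolve_left Complex.I_ne_zero)

theorem d0sq : deriv E 0 ^ 2 = -(vel E 0 : ℂ) ^ 2 := by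
  rw [H.d0, mul_pow, Complex.I_sq]; ring

/-- ODE on the real line -/
theorem ode_real (x : ℝ) : vel E x ^ 2 = vel E 0 ^ 2 - 2 * rad1 b E ^ 2 +
    2 * rad1 b E ^ 2 * (E x ^ 2).re := by
  have hb := H.hb
  have h1 := H.ode x (by simpa using hb) (by simpa using hb)
  rw [H.d1sq, H.d0sq, H.de x] at h1
  have h2 := H.uni x
  have h3 : -(vel E x : ℂ) ^ 2 = -(vel E 0 : ℂ) ^ 2 + 2 * (rad1 b E : ℂ) ^ 2 -
      (rad1 b E : ℂ) ^ 2 * (conj (E x) ^ 2 + E x ^ 2) := by
    calc -(vel E x : ℂ) ^ 2 = (I * vel E x * E x) ^ 2 * conj (E x) ^ 2 := by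
          have : (I * vel E x * E x) ^ 2 * conj (E x) ^ 2 =
            (vel E x : ℂ) ^ 2 * (I ^ 2) * (conj (E x) * E x) ^ 2 := by ring
          rw [this, h2, Complex.I_sq]; ring
      _ = ((-(vel E 0 : ℂ) ^ 2 - 2 * -(rad1 b E : ℂ) ^ 2) * E x ^ 2 +
            -(rad1 b E : ℂ) ^ 2 * (1 + E x ^ 4)) * conj (E x) ^ 2 := by rw [h1]
      _ = (-(vel E 0 : ℂ) ^ 2 + 2 * (rad1 b E : ℂ) ^ 2) * (conj (E x) * E x) ^ 2 -
            (rad1 b E : ℂ) ^ 2 * (conj (E x) ^ 2 + E x ^ 2 * (conj (E x) * E x) ^ 2) := by ring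
      _ = _ := by rw [h2]; ring
  have h4 : conj (E x) ^ 2 + E x ^ 2 = ((2 * (E x ^ 2).re : ℝ) : ℂ) := by
    rw [← map_pow, add_comm, Complex.add_conj]
  rw [h4] at h3
  have h5 : -(vel E x) ^ 2 = -(vel E 0) ^ 2 + 2 * (rad1 b E) ^ 2 -
      (rad1 b E) ^ 2 * (2 * (E x ^ 2).re) := by exact_mod_cast h3
  linarith only [h5]

/-- ODE on the imaginary axis -/
theorem ode_axis {y : ℝ} (h1 : -b < y) (h2 : y < b) : (I * deriv E (I * y)).re ^ 2 =
    (vel E 0 ^ 2 - 2 * rad1 b E ^ 2) * (E (I * y)).re ^ 2 +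
      rad1 b E ^ 2 * (1 + (E (I * y)).re ^ 4) := by
  have hb := H.hb
  have e1 := H.ode (I * y) (by simpa using h1) (by simp; linarith)
  rw [H.d1sq, H.d0sq] at e1
  have e2 : I * deriv E (I * y) = (((I * deriv E (I * y)).re : ℝ) : ℂ) := by
    apply Complex.ext
    · simp
    · rw [H.im_axis h1 h2, Complex.ofReal_im]
  have e3 := H.re_axis h1 h2
  have e4 : (((I * deriv E (I * y)).re : ℝ) : ℂ) ^ 2 =
      ((vel E 0 : ℂ) ^ 2 - 2 * (rad1 b E : ℂ) ^ 2) * E (I * y) ^ 2 +
      (rad1 b E : ℂ) ^ 2 * (1 + E (I * y) ^ 4) := by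
    rw [← e2, mul_pow, e1, Complex.I_sq]; ring
  rw [e3] at e4
  exact_mod_cast e4

theorem half0 : E (1 / 2 : ℝ) = -1 := by
  have := H.half 0
  rw [zero_add, H.one] at this
  push_cast
  exact this

/-- a point where `E ^ 2 = -1` -/
theorem exists_x0 : ∃ x0 : ℝ, 0 ≤ x0 ∧ x0 ≤ 1 / 2 ∧ E x0 ^ 2 = -1 := by
  have hc : ContinuousOn (fun x : ℝ => (E x).re) (Icc 0 (1 / 2)) :=
    (Complex.continuous_re.comp H.cont_real).continuousOn
  have h1 : (E (0 : ℝ)).re = 1 := by rw [Complex.ofReal_zero, H.one, Complex.one_re]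
  have h2 : (E (1 / 2 : ℝ)).re = -1 := by rw [H.half0]; simp
  have h3 := intermediate_value_Icc' (by norm_num : (0 : ℝ) ≤ 1 / 2) hc
  obtain ⟨x0, hx0, h4⟩ := h3 (show (0 : ℝ) ∈ Icc ((fun x : ℝ => (E x).re) (1 / 2))
    ((fun x : ℝ => (E x).re) 0) by
      simp only [h1, h2]; norm_num)
  refine ⟨x0, hx0.1, hx0.2, ?_⟩
  simp only at h4
  have h5 := H.normSq1 x0
  rw [h4] at h5
  have h6 : E x0 = (E x0).im * I := by
    apply Complex.ext
    · simp [h4]
    · simp
  rw [h6, mul_pow, Complex.I_sq]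
  have h7 : ((E x0).im : ℂ) ^ 2 = 1 := by
    have : (E x0).im ^ 2 = 1 := by linarith only [h5]
    exact_mod_cast this
  rw [h7]; ring

/-- `q² > 4 r²` -/
theorem strict : 4 * rad1 b E ^ 2 < vel E 0 ^ 2 := by
  obtain ⟨x0, hx0, hx1, hE⟩ := H.exists_x0
  have h1 := H.ode_real x0
  rw [hE] at h1
  have h2 : ((-1 : ℂ)).re = -1 := by simp
  rw [h2] at h1
  have h3 : 4 * rad1 b E ^ 2 ≤ vel E 0 ^ 2 := by linarith only [h1, sq_nonneg (vel E x0)]
  refine lt_of_le_of_ne h3 fun h4 => ?_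
  -- Gronwall
  have hb := H.hb
  have hx2 : x0 ≤ 1 / 2 := hx1
  have hder : ∀ x : ℝ, HasDerivAt (fun x : ℝ => E x ^ 2 + 1) (2 * E x * deriv E x) x := by
    intro x
    have := ((H.hr x).pow 2).add_const (1 : ℂ)
    simpa [pow_one] using this
  have hbound : ∀ x : ℝ, ‖2 * E x * deriv E x‖ ≤ 2 * |rad1 b E| * ‖E x ^ 2 + 1‖ + 0 := by
    intro x
    have e1 := H.ode_real x
    have e2 : ‖E x ^ 2 + 1‖ ^ 2 = 2 + 2 * (E x ^ 2).re := by
      have e3 : ‖E x ^ 2‖ = 1 := by rw [norm_pow, H.norm1, one_pow]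
      have e4 : (E x ^ 2).re ^ 2 + (E x ^ 2).im ^ 2 = 1 := by
        have := Complex.sq_norm (E x ^ 2)
        rw [e3, Complex.normSq_apply] at this
        linarith only [this, sq (E x ^ 2).re, sq (E x ^ 2).im]
      rw [Complex.sq_norm, Complex.normSq_apply, Complex.add_re, Complex.add_im,
        Complex.one_re, Complex.one_im]
      linarith only [e4, sq (E x ^ 2).re, sq (E x ^ 2).im]
    have e5 : vel E x ^ 2 = (|rad1 b E| * ‖E x ^ 2 + 1‖) ^ 2 := by
      rw [mul_pow, sq_abs, e2]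
      linarith only [e1, h4]
    have e6 : |vel E x| = |rad1 b E| * ‖E x ^ 2 + 1‖ := by
      rw [← abs_of_nonneg (by positivity : 0 ≤ |rad1 b E| * ‖E x ^ 2 + 1‖)]
      exact (sq_eq_sq_iff_abs_eq_abs _ _).1 e5
    rw [H.de x, norm_mul, norm_mul, norm_mul, norm_mul, H.norm1, Complex.norm_I,
      Complex.norm_real, Real.norm_eq_abs, e6]
    simp
    linarith
  have key := norm_le_gronwallBound_of_norm_deriv_right_le
    (f := fun x : ℝ => E x ^ 2 + 1) (f' := fun x : ℝ => 2 * E x * deriv E x)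
    (δ := 0) (K := 2 * |rad1 b E|) (ε := 0) (a := x0) (b := 1 / 2)
    (fun x _ => (hder x).continuousAt.continuousWithinAt)
    (fun x _ => (hder x).hasDerivWithinAt) (by simp [hE]) (fun x _ => hbound x)
    (1 / 2) ⟨hx2, le_rfl⟩
  rw [gronwallBound_ε0_δ0] at key
  have : E (1 / 2 : ℝ) ^ 2 + 1 = 2 := by rw [H.half0]; norm_num
  rw [this] at key
  norm_num at key

end Fn

end Vale.Agent.P097.H807
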