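import Mathlib
import Vale.Agent.P097.H807.Fn

/-! # P097 / H807 : the angle function and the half period -/

set_option linter.all false

open scoped Topology ComplexConjugate
open Filter Set

namespace Vale.Agent.P097.H807

open Complex

/-- integrand of the real period -/
noncomputable def fI (m s : ℝ) : ℝ := (√(1 + m * Real.cos (2 * s)))⁻¹

/-- integrand of the imaginary period -/
noncomputable def fJ (m s : ℝ) : ℝ := (√(s ^ 2 + m / 2 * (1 + s ^ 4)))⁻¹

noncomputable def II (m : ℝ) : ℝ := ∫ s in (0 : ℝ)..Real.pi, fI m s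

noncomputable def JJ (m : ℝ) : ℝ := ∫ s in (0 : ℝ)..1, fJ m s

theorem radI_pos {m : ℝ} (h0 : 0 < m) (h1 : m < 1) (s : ℝ) : 0 < 1 + m * Real.cos (2 * s) := by
  have := Real.neg_one_le_cos (2 * s)
  nlinarith

theorem radJ_pos {m : ℝ} (h0 : 0 < m) (s : ℝ) : 0 < s ^ 2 + m / 2 * (1 + s ^ 4) := by
  have : 0 ≤ s ^ 2 := sq_nonneg s
  have : 0 ≤ s ^ 4 := by positivity
  have : 0 < m / 2 * (1 + s ^ 4) := by positivity
  linarith

theorem fI_pos {m : ℝ} (h0 : 0 < m) (h1 : m < 1) (s : ℝ) : 0 < fI m s :=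
  inv_pos.2 (Real.sqrt_pos.2 (radI_pos h0 h1 s))

theorem fJ_pos {m : ℝ} (h0 : 0 < m) (s : ℝ) : 0 < fJ m s :=
  inv_pos.2 (Real.sqrt_pos.2 (radJ_pos h0 s))

theorem fI_cont {m : ℝ} (h0 : 0 < m) (h1 : m < 1) : Continuous (fI m) := by
  unfold fI
  exact Continuous.inv₀ (by fun_prop) fun s => (Real.sqrt_pos.2 (radI_pos h0 h1 s)).ne'

theorem fJ_cont {m : ℝ} (h0 : 0 < m) : Continuous (fJ m) := by
  unfold fJ
  exact Continuous.inv₀ (by fun_prop) fun s => (Real.sqrt_pos.2 (radJ_pos h0 s)).ne'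

theorem fI_per (m s : ℝ) : fI m (s + Real.pi) = fI m s := by
  unfold fI
  rw [show 2 * (s + Real.pi) = 2 * s + 2 * Real.pi by ring, Real.cos_add_two_pi]

/-- primitives -/
noncomputable def FI (m ψ : ℝ) : ℝ := ∫ s in (0 : ℝ)..ψ, fI m s

noncomputable def FJ (m u : ℝ) : ℝ := ∫ s in (0 : ℝ)..u, fJ m s

theorem FI_deriv {m : ℝ} (h0 : 0 < m) (h1 : m < 1) (ψ : ℝ) : HasDerivAt (FI m) (fI m ψ) ψ :=
  intervalIntegral.integral_hasDerivAt_right ((fI_cont h0 h1).intervalIntegrable _ _)
    ((fI_cont h0 h1).stronglyMeasurableAtFilter _ _) (fI_cont h0 h1).continuousAt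

theorem FJ_deriv {m : ℝ} (h0 : 0 < m) (u : ℝ) : HasDerivAt (FJ m) (fJ m u) u :=
  intervalIntegral.integral_hasDerivAt_right ((fJ_cont h0).intervalIntegrable _ _)
    ((fJ_cont h0).stronglyMeasurableAtFilter _ _) (fJ_cont h0).continuousAt

theorem FI_mono {m : ℝ} (h0 : 0 < m) (h1 : m < 1) : StrictMono (FI m) := by
  refine strictMono_of_deriv_pos fun x => ?_
  rw [(FI_deriv h0 h1 x).deriv]
  exact fI_pos h0 h1 x

theorem const_of_hasDerivAt {f : ℝ → ℝ} (h : ∀ x, HasDerivAt f 0 x) (x y : ℝ) : f x = f y :=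
  is_const_of_deriv_eq_zero (fun x => (h x).differentiableAt) (fun x => (h x).deriv) x y

theorem FI_add_pi {m : ℝ} (h0 : 0 < m) (h1 : m < 1) (ψ : ℝ) :
    FI m (ψ + Real.pi) = FI m ψ + II m := by
  have h : ∀ x, HasDerivAt (fun x => FI m (x + Real.pi) - FI m x) 0 x := by
    intro x
    have e1 := ((FI_deriv h0 h1 (x + Real.pi)).comp_add_const x Real.pi).sub (FI_deriv h0 h1 x)
    rw [fI_per, sub_self] at e1
    exact e1
  have e2 := const_of_hasDerivAt h ψ 0
  have e3 : FI m 0 = 0 := by unfold FI; simp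
  have e4 : FI m Real.pi = II m := rfl
  simp only [zero_add, e3, e4, sub_zero] at e2
  linarith only [e2]

namespace Fn

variable {b : ℝ} {E : ℂ → ℂ} (H : Fn b E)

include H

theorem axis0 : (E (I * (0 : ℝ))).re = 1 := by simp [H.one]

theorem axisb : E (I * b) = 0 := by
  have hb := H.hb
  refine (H.zero (I * b) (by simp; linarith) (by simp; linarith)).2 ⟨0, by simp⟩

theorem hu {y : ℝ} (h1 : -b < y) (h2 : y < 3 * b) :
    HasDerivAt (fun y : ℝ => (E (I * y)).re) (I * deriv E (I * y)).re y :=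
  Complex.reCLM.hasFDerivAt.comp_hasDerivAt y (H.hi h1 h2)

theorem rad_pos : 0 < rad1 b E ^ 2 := by
  have := H.rad1_ne
  positivity

theorem d_ne {y : ℝ} (h1 : -b < y) (h2 : y < b) : 0 < (I * deriv E (I * y)).re ^ 2 := by
  rw [H.ode_axis h1 h2]
  have e1 := H.strict
  have e2 := H.rad_pos
  have e3 : 0 ≤ (vel E 0 ^ 2 - 2 * rad1 b E ^ 2) * (E (I * y)).re ^ 2 :=
    mul_nonneg (by linarith) (sq_nonneg _)
  have e4 : 0 ≤ rad1 b E ^ 2 * (E (I * y)).re ^ 4 := by positivity
  linarith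

theorem d_neg {y : ℝ} (h1 : 0 ≤ y) (h2 : y < b) : (I * deriv E (I * y)).re < 0 := by
  have hb := H.hb
  -- a point where the derivative is negative
  obtain ⟨ξ, hξ, hs⟩ := exists_hasDerivAt_eq_slope (fun y : ℝ => (E (I * y)).re)
    (fun y : ℝ => (I * deriv E (I * y)).re) hb
    (fun y hy => (H.hu (by linarith [hy.1]) (by linarith [hy.2])).continuousAt.continuousWithinAt)
    (fun y hy => H.hu (by linarith [hy.1]) (by linarith [hy.2]))
  rw [H.axis0, H.axisb, Complex.zero_re] at hs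
  have hneg : (I * deriv E (I * ξ)).re < 0 := by
    rw [hs]
    apply div_neg_of_neg_of_pos <;> linarith
  by_contra hc
  push Not at hc
  have hcont : ContinuousOn (fun y : ℝ => (I * deriv E (I * y)).re) (Ioo (-b) (3 * b)) :=
    Complex.continuous_re.comp_continuousOn H.cont_axis
  have hsub : uIcc y ξ ⊆ Ioo (-b) b := by
    intro z hz
    have e1 : min y ξ ≤ z := hz.1
    have e2 : z ≤ max y ξ := hz.2
    have e3 : 0 ≤ min y ξ := le_min h1 hξ.1.le
    have e4 : max y ξ < b := max_lt h2 hξ.2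
    exact ⟨by linarith, by linarith⟩
  have hivt := intermediate_value_uIcc
    (hcont.mono (hsub.trans (Ioo_subset_Ioo_right (by linarith))))
  obtain ⟨z, hz, hz0⟩ := hivt (show (0 : ℝ) ∈ uIcc ((fun y : ℝ => (I * deriv E (I * y)).re) y)
    ((fun y : ℝ => (I * deriv E (I * y)).re) ξ) by
      rw [mem_uIcc]; right; exact ⟨hneg.le, hc⟩)
  have := H.d_ne (hsub hz).1 (hsub hz).2
  simp only at hz0
  rw [hz0] at this
  norm_num at this

theorem vel0_pos : 0 < vel E 0 := by
  have h1 := H.d_neg le_rfl H.hb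
  rw [Complex.ofReal_zero, mul_zero, H.d0] at h1
  have h2 : (I * (I * (vel E 0 : ℂ))).re = -vel E 0 := by
    rw [← mul_assoc, Complex.I_mul_I]; simp
  rw [h2] at h1
  linarith

theorem vel_pos (x : ℝ) : 0 < vel E x := by
  by_contra hc
  push Not at hc
  have hivt := intermediate_value_uIcc (a := x) (b := 0) H.cont_vel.continuousOn
  obtain ⟨z, -, hz0⟩ := hivt (show (0 : ℝ) ∈ uIcc (vel E x) (vel E 0) by
    rw [mem_uIcc]; left; exact ⟨hc, H.vel0_pos.le⟩)
  have h1 := H.ode_real z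
  rw [hz0] at h1
  have h2 : -1 ≤ (E z ^ 2).re := by
    have := Complex.abs_re_le_norm (E z ^ 2)
    rw [norm_pow, H.norm1, one_pow, abs_le] at this
    exact this.1
  have h3 := H.strict
  have h4 := H.rad_pos
  nlinarith

end Fn

/-- constants -/
noncomputable def cC (b : ℝ) (E : ℂ → ℂ) : ℝ := √(vel E 0 ^ 2 - 2 * rad1 b E ^ 2)

noncomputable def cm (b : ℝ) (E : ℂ → ℂ) : ℝ :=
  2 * rad1 b E ^ 2 / (vel E 0 ^ 2 - 2 * rad1 b E ^ 2)

/-- the angle -/
noncomputable def ang (E : ℂ → ℂ) (x : ℝ) : ℝ := ∫ s in (0 : ℝ)..x, vel E s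

namespace Fn

variable {b : ℝ} {E : ℂ → ℂ} (H : Fn b E)

include H

theorem den_pos : 0 < vel E 0 ^ 2 - 2 * rad1 b E ^ 2 := by
  have h1 := H.strict
  have h2 := H.rad_pos
  linarith

theorem C_pos : 0 < cC b E := Real.sqrt_pos.2 H.den_pos

theorem C_sq : cC b E ^ 2 = vel E 0 ^ 2 - 2 * rad1 b E ^ 2 := Real.sq_sqrt H.den_pos.le

theorem m_pos : 0 < cm b E := div_pos (by linarith [H.rad_pos]) H.den_pos

theorem m_lt : cm b E < 1 := by
  unfold cm
  rw [div_lt_one H.den_pos]
  linarith [H.strict]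

theorem Cm : cC b E ^ 2 * cm b E = 2 * rad1 b E ^ 2 := by
  rw [H.C_sq]
  unfold cm
  have := H.den_pos.ne'
  field_simp

theorem vel_sq (x : ℝ) : vel E x ^ 2 = cC b E ^ 2 * (1 + cm b E * (E x ^ 2).re) := by
  have h1 := H.ode_real x
  have h2 := H.Cm
  have h3 := H.C_sq
  calc vel E x ^ 2 = cC b E ^ 2 + (2 * rad1 b E ^ 2) * (E x ^ 2).re := by rw [h1, h3]
    _ = _ := by rw [← h2]; ring

theorem ang_deriv (x : ℝ) : HasDerivAt (ang E) (vel E x) x :=
  intervalIntegral.integral_hasDerivAt_right (H.cont_vel.intervalIntegrable _ _)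
    (H.cont_vel.stronglyMeasurableAtFilter _ _) H.cont_vel.continuousAt

theorem ang_zero : ang E 0 = 0 := by unfold ang; simp

theorem ang_mono : StrictMono (ang E) := by
  refine strictMono_of_deriv_pos fun x => ?_
  rw [(H.ang_deriv x).deriv]
  exact H.vel_pos x

theorem exp_ang (x : ℝ) : E x = Complex.exp (ang E x * I) := by
  have hder : ∀ x : ℝ, HasDerivAt (fun x : ℝ => E x * Complex.exp (-(ang E x * I))) 0 x := by
    intro x
    have e1 : HasDerivAt (fun x : ℝ => -((ang E x : ℂ) * I)) (-((vel E x : ℂ) * I)) x :=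
      ((H.ang_deriv x).ofReal_comp.mul_const I).neg
    have e2 := (H.hr x).mul e1.cexp
    rw [H.de x] at e2
    have e3 : I * vel E x * E x * Complex.exp (-((ang E x : ℂ) * I)) +
        E x * (Complex.exp (-((ang E x : ℂ) * I)) * -((vel E x : ℂ) * I)) = 0 := by ring
    rw [e3] at e2
    exact e2
  have hc := is_const_of_deriv_eq_zero (fun x => (hder x).differentiableAt)
    (fun x => (hder x).deriv) x 0
  simp only [Complex.ofReal_zero, H.one, H.ang_zero, zero_mul, neg_zero, Complex.exp_zero,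
    mul_one] at hc
  rw [Complex.exp_neg] at hc
  have := Complex.exp_ne_zero ((ang E x : ℂ) * I)
  field_simp at hc
  exact hc

theorem re_sq (x : ℝ) : (E x ^ 2).re = Real.cos (2 * ang E x) := by
  rw [H.exp_ang x, ← Complex.exp_nat_mul]
  have : ((2 : ℕ) : ℂ) * ((ang E x : ℂ) * I) = ((2 * ang E x : ℝ) : ℂ) * I := by
    push_cast; ring
  rw [this, Complex.exp_ofReal_mul_I_re]

theorem vel_eq (x : ℝ) : vel E x = cC b E * √(1 + cm b E * Real.cos (2 * ang E x)) := by
  have h1 := H.vel_sq x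
  rw [H.re_sq] at h1
  have h2 := radI_pos H.m_pos H.m_lt (ang E x)
  have h3 : 0 ≤ cC b E * √(1 + cm b E * Real.cos (2 * ang E x)) :=
    mul_nonneg H.C_pos.le (Real.sqrt_nonneg _)
  refine (sq_eq_sq₀ (H.vel_pos x).le h3).1 ?_
  rw [h1, mul_pow, Real.sq_sqrt h2.le]

theorem FI_ang (x : ℝ) : FI (cm b E) (ang E x) = cC b E * x := by
  have h : ∀ x, HasDerivAt (fun x => FI (cm b E) (ang E x) - cC b E * x) 0 x := by
    intro x
    have e1 := ((FI_deriv H.m_pos H.m_lt (ang E x)).comp x (H.ang_deriv x)).sub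
      ((hasDerivAt_id x).const_mul (cC b E))
    have e2 : fI (cm b E) (ang E x) * vel E x - cC b E * 1 = 0 := by
      rw [H.vel_eq x]
      unfold fI
      have := (Real.sqrt_pos.2 (radI_pos H.m_pos H.m_lt (ang E x))).ne'
      field_simp
      ring
    rw [e2] at e1
    exact e1
  have e3 := const_of_hasDerivAt h x 0
  have e4 : FI (cm b E) 0 = 0 := by unfold FI; simp
  simp only [H.ang_zero, e4, mul_zero, sub_zero] at e3
  linarith only [e3]

/-- half of the real period -/
theorem ang_add (x : ℝ) : ang E (x + II (cm b E) / cC b E) = ang E x + Real.pi := by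
  apply (FI_mono H.m_pos H.m_lt).injective
  rw [FI_add_pi H.m_pos H.m_lt, H.FI_ang, H.FI_ang]
  have := H.C_pos.ne'
  field_simp

theorem II_pos : 0 < II (cm b E) := by
  have := FI_mono H.m_pos H.m_lt Real.pi_pos
  have e4 : FI (cm b E) 0 = 0 := by unfold FI; simp
  rw [e4] at this
  exact this

theorem E_add (x : ℝ) : E (x + (II (cm b E) / cC b E : ℝ)) = -E x := by
  have h1 := H.exp_ang (x + II (cm b E) / cC b E)
  rw [H.ang_add] at h1
  push_cast at h1 ⊢
  rw [h1, H.exp_ang x, add_mul, Complex.exp_add, Complex.exp_pi_mul_I]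
  ring

theorem E_add_strip {t : ℂ} (h1 : -b < t.im) (h2 : t.im < 3 * b) :
    E (t + (II (cm b E) / cC b E : ℝ)) = -E t := by
  have hb := H.hb
  set T : ℝ := II (cm b E) / cC b E with hT
  have d1 : DifferentiableOn ℂ (fun t => E (t + (T : ℂ))) {t : ℂ | -b < t.im ∧ t.im < 3 * b} := by
    refine H.diff.comp (by fun_prop) fun z hz => ?_
    simp only [mem_setOf_eq, add_im, ofReal_im, add_zero] at hz ⊢
    exact hz
  have d2 : DifferentiableOn ℂ (fun t => -E t) {t : ℂ | -b < t.im ∧ t.im < 3 * b} := H.diff.neg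
  have h0 : (0 : ℂ) ∈ {t : ℂ | -b < t.im ∧ t.im < 3 * b} := by
    simp only [mem_setOf_eq, zero_im]
    exact ⟨by linarith, by linarith⟩
  refine (d1.analyticOnNhd (isOpen_S b)).eqOn_of_preconnected_of_frequently_eq
    (d2.analyticOnNhd (isOpen_S b)) (convex_S b).isPreconnected h0 ?_
    (show t ∈ {t : ℂ | -b < t.im ∧ t.im < 3 * b} from ⟨h1, h2⟩)
  have h3 : Tendsto (fun n : ℕ => (((1 / ((n : ℝ) + 1) : ℝ)) : ℂ)) atTop (𝓝[≠] 0) := by
    refine tendsto_nhdsWithin_iff.2 ⟨?_, Eventually.of_forall fun n => ?_⟩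
    · have := (Complex.continuous_ofReal.tendsto 0).comp
        (tendsto_one_div_add_atTop_nhds_zero_nat (𝕜 := ℝ))
      rw [Complex.ofReal_zero] at this
      exact this
    · have : (1 / ((n : ℝ) + 1)) ≠ 0 := by positivity
      simpa only [mem_compl_iff, mem_singleton_iff, ofReal_eq_zero] using this
  exact h3.frequently (Frequently.of_forall fun n => H.E_add _)

theorem T_half : II (cm b E) / cC b E = 1 / 2 := by
  have hb := H.hb
  have hTpos : 0 < II (cm b E) / cC b E := div_pos H.II_pos H.C_pos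
  have h1 := H.E_add_strip (t := I * b) (by simp; linarith) (by simp; linarith)
  have h2 : E (I * b) = 0 := H.axisb
  rw [h2, neg_zero] at h1
  obtain ⟨k, hk⟩ := (H.zero _ (by simp; linarith) (by simp; linarith)).1 h1
  have h3 : II (cm b E) / cC b E = (k : ℝ) / 2 := by
    have := add_left_cancel hk
    exact_mod_cast this
  have hk1 : (1 : ℝ) ≤ k := by
    have : (0 : ℝ) < k := by rw [h3] at hTpos; linarith
    exact_mod_cast this
  have h4 : 1 / 2 ≤ II (cm b E) / cC b E := by rw [h3]; linarith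
  have h5 : ang E (II (cm b E) / cC b E) = Real.pi := by
    have := H.ang_add 0
    rwa [zero_add, H.ang_zero, zero_add] at this
  have h6 : ang E (1 / 2) ≤ Real.pi := by
    rw [← h5]; exact H.ang_mono.monotone h4
  have h7 : 0 < ang E (1 / 2) := by
    have := H.ang_mono (show (0 : ℝ) < 1 / 2 by norm_num)
    rwa [H.ang_zero] at this
  have h8 : Real.cos (ang E (1 / 2)) = -1 := by
    have e1 := H.exp_ang (1 / 2)
    rw [H.half0] at e1
    have e2 := congrArg Complex.re e1
    rw [Complex.exp_ofReal_mul_I_re] at e2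
    simpa using e2.symm
  have h9 : ang E (1 / 2) = Real.pi := by
    refine Real.injOn_cos ⟨h7.le, h6⟩ ⟨Real.pi_pos.le, le_rfl⟩ ?_
    rw [h8, Real.cos_pi]
  exact (H.ang_mono.injective (h9.trans h5.symm)).symm

theorem C_eq : cC b E = 2 * II (cm b E) := by
  have h := H.T_half
  rw [div_eq_iff H.C_pos.ne'] at h
  linarith

theorem ang_half (x : ℝ) : ang E (x + 1 / 2) = ang E x + Real.pi := by
  rw [← H.T_half, H.ang_add]

theorem ang_one (x : ℝ) : ang E (x + 1) = ang E x + 2 * Real.pi := by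
  rw [show x + 1 = (x + 1 / 2) + 1 / 2 by ring, H.ang_half, H.ang_half]; ring

theorem E_neg (x : ℝ) : E (-x) = conj (E x) := by
  have h1 := H.inv x (by simpa using H.hb) (by simpa using H.hb)
  have h2 := H.uni x
  exact mul_right_cancel₀ (H.ne0 x) (h1.trans h2.symm)

theorem vel_neg (x : ℝ) : vel E (-x) = vel E x := by
  have h1 := H.vel_sq (-x)
  have h2 := H.vel_sq x
  have h3 : (E (-x : ℝ) ^ 2).re = (E x ^ 2).re := by
    push_cast
    rw [H.E_neg, ← map_pow, Complex.conj_re]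
  rw [h3, ← h2] at h1
  exact (sq_eq_sq₀ (H.vel_pos _).le (H.vel_pos _).le).1 h1

theorem ang_neg (x : ℝ) : ang E (-x) = -ang E x := by
  have h : ∀ x, HasDerivAt (fun x => ang E (-x) + ang E x) 0 x := by
    intro x
    have e1 := ((H.ang_deriv (-x)).comp x (hasDerivAt_neg x)).add (H.ang_deriv x)
    rw [H.vel_neg] at e1
    have e2 : vel E x * -1 + vel E x = 0 := by ring
    rw [e2] at e1
    exact e1
  have e3 := const_of_hasDerivAt h x 0
  simp only [neg_zero, H.ang_zero, add_zero] at e3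
  linarith only [e3]

theorem ang_analytic (x : ℝ) : AnalyticAt ℝ (ang E) x := by
  have hb := H.hb
  have hE : AnalyticAt ℂ E (x : ℂ) :=
    H.diff.analyticAt ((isOpen_S b).mem_nhds (by
      simp only [mem_setOf_eq, ofReal_im]; exact ⟨by linarith, by linarith⟩))
  have h1 : AnalyticAt ℂ (fun z => Complex.log (E z / E x)) (x : ℂ) := by
    refine (hE.div_const).clog ?_
    rw [div_self (H.ne0 x)]
    exact Complex.one_mem_slitPlane
  have h2 : AnalyticAt ℝ (fun y : ℝ => (Complex.log (E y / E x)).im) x := by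
    have h3 : AnalyticAt ℝ (fun z => Complex.log (E z / E x)) (Complex.ofRealCLM x) :=
      h1.restrictScalars
    have h4 := h3.comp (Complex.ofRealCLM.analyticAt x)
    exact (Complex.imCLM.analyticAt _).comp h4
  have h5 : AnalyticAt ℝ (fun y : ℝ => ang E x + (Complex.log (E y / E x)).im) x :=
    analyticAt_const.add h2
  refine h5.congr ?_
  have h6 : ContinuousAt (fun y => ang E y - ang E x) x :=
    (H.ang_deriv x).continuousAt.sub continuousAt_const
  have h7 : Ioo (-Real.pi) Real.pi ∈ 𝓝 (ang E x - ang E x) := by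
    rw [sub_self]; exact Ioo_mem_nhds (by linarith [Real.pi_pos]) Real.pi_pos
  filter_upwards [h6 h7] with y hy
  have e1 : E y / E x = Complex.exp (((ang E y - ang E x : ℝ) : ℂ) * I) := by
    rw [H.exp_ang y, H.exp_ang x, ← Complex.exp_sub]
    congr 1
    push_cast; ring
  have e2 : (((ang E y - ang E x : ℝ) : ℂ) * I).im = ang E y - ang E x := by simp
  rw [e1, Complex.log_exp (by rw [e2]; exact hy.1) (by rw [e2]; exact hy.2.le), e2]
  ring

/-- the imaginary period -/
theorem bC_eq : cC b E * b = JJ (cm b E) := by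
  have hb := H.hb
  have h1 : ∀ y ∈ Ioo 0 b, HasDerivAt (fun y : ℝ => FJ (cm b E) (E (I * y)).re + cC b E * y) 0 y := by
    intro y hy
    have e1 := ((FJ_deriv H.m_pos (E (I * y)).re).comp y
      (H.hu (by linarith [hy.1]) (by linarith [hy.2]))).add ((hasDerivAt_id y).const_mul (cC b E))
    have hd := H.d_neg hy.1.le hy.2
    have e2 := H.ode_axis (by linarith [hy.1]) hy.2
    have e3 := radJ_pos H.m_pos (E (I * y)).re
    have e4 : (I * deriv E (I * y)).re ^ 2 =
        (cC b E * √((E (I * y)).re ^ 2 + cm b E / 2 * (1 + (E (I * y)).re ^ 4))) ^ 2 := by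
      rw [mul_pow, Real.sq_sqrt e3.le, e2]
      have f1 := H.Cm
      have f2 := H.C_sq
      rw [← f2]
      linear_combination (-(1 + (E (I * y)).re ^ 4) / 2) * f1
    have e5 : -(I * deriv E (I * y)).re =
        cC b E * √((E (I * y)).re ^ 2 + cm b E / 2 * (1 + (E (I * y)).re ^ 4)) := by
      refine (sq_eq_sq₀ (by linarith) (mul_nonneg H.C_pos.le (Real.sqrt_nonneg _))).1 ?_
      rw [neg_sq, e4]
    have e6 : fJ (cm b E) (E (I * y)).re * (I * deriv E (I * y)).re + cC b E * 1 = 0 := by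
      have g1 : (I * deriv E (I * y)).re =
        -(cC b E * √((E (I * y)).re ^ 2 + cm b E / 2 * (1 + (E (I * y)).re ^ 4))) := by
        rw [← e5]; ring
      rw [g1]
      unfold fJ
      have g2 := inv_mul_cancel₀ (Real.sqrt_pos.2 e3).ne'
      linear_combination (-cC b E) * g2
    rw [e6] at e1
    exact e1
  have h2 : ContinuousOn (fun y : ℝ => FJ (cm b E) (E (I * y)).re + cC b E * y) (Icc 0 b) := by
    intro y hy
    have e1 := ((FJ_deriv H.m_pos (E (I * y)).re).comp y
      (H.hu (by linarith [hy.1]) (by linarith [hy.2]))).add ((hasDerivAt_id y).const_mul (cC b E))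
    exact e1.continuousAt.continuousWithinAt
  obtain ⟨ξ, hξ, hs⟩ := exists_hasDerivAt_eq_slope _ (fun _ => (0 : ℝ)) hb h2 h1
  have h3 : FJ (cm b E) 0 = 0 := by unfold FJ; simp
  have h4 : FJ (cm b E) 1 = JJ (cm b E) := rfl
  rw [H.axis0, H.axisb, Complex.zero_re, h3, h4] at hs
  rw [eq_div_iff (by linarith), zero_mul] at hs
  linarith

end Fn

end Vale.Agent.P097.H807
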