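import Mathlib
import Vale.Agent.P097.H807.Fn2

/-! # P097 / H807 : [RPOS] -/

set_option linter.all false

open scoped Topology ComplexConjugate
open Filter Set

namespace Vale.Agent.P097.H807

open Complex Vale.Agent.P097.LR

theorem Et_zero {b : ℝ} (h : Et b 0 ≠ 0) : Et b 0 = 1 := by
  have e1 : jacobiTheta₂ (2 * 0 - 2 * I * b + 1 / 2) (8 * I * b) =
      jacobiTheta₂ (2 * 0 + 2 * I * b + 1 / 2) (8 * I * b) := by
    rw [← jacobiTheta₂_neg_left, ← jacobiTheta₂_add_left]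
    congr 1
    ring
  unfold Et at h ⊢
  rw [e1] at h ⊢
  rw [mul_zero, Complex.exp_zero, one_mul] at h ⊢
  apply div_self
  intro h0
  rw [h0] at h
  simp at h

theorem fn_of (hE : EFac) (hO : ODE) {b : ℝ} (hb : 0 < b) : Fn b (Et b) := by
  obtain ⟨hJ, hE⟩ := hE
  obtain ⟨h1, h2, h3, h4, h5, h6, h7⟩ := hE b (by simpa using hb)
  simp only [Complex.ofReal_re] at h1 h2 h3 h4 h5 h6 h7
  have hO := hO b (by simpa using hb)
  simp only [Complex.ofReal_re] at hO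
  refine ⟨hb, ?_, h1, h2, ?_, h5, ?_, h7, ?_⟩
  · have : DifferentiableOn ℂ (fun t : ℂ => ((t, (b : ℂ)) : ℂ × ℂ))
        {t : ℂ | -b < t.im ∧ t.im < 3 * b} := by fun_prop
    refine hJ.comp this fun t ht => ?_
    simp only [mem_setOf_eq, ofReal_re]
    exact ⟨hb, ht.1, ht.2⟩
  · intro t ht1 ht2
    have := h4 t ht1 ht2
    rwa [Complex.conj_ofReal] at this
  · apply Et_zero
    intro h0
    have := h2 0 (by simpa using hb) (by simpa using hb)
    rw [h0, mul_zero] at this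
    exact zero_ne_one this
  · intro t ht1 ht2
    exact hO t ht1 ht2

theorem mC_eq (hE : EFac) (hO : ODE) {b : ℝ} (hb : 0 < b) : mC b = (cm b (Et b) : ℂ) := by
  have H := fn_of hE hO hb
  unfold mC cm e0 e1
  rw [H.d1sq, H.d0sq]
  push_cast
  have h := H.den_pos.ne'
  have h2 : ((vel (Et b) 0 : ℂ) ^ 2 - 2 * (rad1 b (Et b) : ℂ) ^ 2) ≠ 0 := by exact_mod_cast h
  have h3 : (-(vel (Et b) 0 : ℂ) ^ 2 - 2 * -(rad1 b (Et b) : ℂ) ^ 2) ≠ 0 := by
    intro h4
    apply h2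
    linear_combination -h4
  rw [div_eq_div_iff h3 h2]
  ring

theorem den_eq (hE : EFac) (hO : ODE) {b : ℝ} (hb : 0 < b) :
    e0 b ^ 2 - 2 * e1 b ^ 2 = -(cC b (Et b) ^ 2 : ℝ) := by
  have H := fn_of hE hO hb
  unfold e0 e1
  rw [H.d1sq, H.d0sq, H.C_sq]
  push_cast
  ring

theorem rpos (hE : EFac) (hO : ODE) : RPOS := by
  intro b hb
  have H := fn_of hE hO hb
  refine ⟨⟨cC b (Et b), cm b (Et b), H.C_pos, H.m_pos, H.m_lt, mC_eq hE hO hb,
    den_eq hE hO hb⟩, ang (Et b), H.ang_analytic, fun x => ?_, H.ang_zero, H.ang_one, H.ang_neg,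
    H.exp_ang⟩
  rw [(H.ang_deriv x).deriv]
  exact H.vel_pos x

end Vale.Agent.P097.H807
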