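import Mathlib
import Vale.Agent.P097.H807.Rpos

/-! # P097 / H807 : [PER] -/

set_option linter.all false

open scoped Topology ComplexConjugate
open Filter Set

namespace Vale.Agent.P097.H807

open Complex Vale.Agent.P097.LR Asymptotics

theorem inv_sqrt_lip {c x y : ℝ} (hc : 0 < c) (hx : c ≤ x) (hy : c ≤ y) :
    |(√x)⁻¹ - (√y)⁻¹| ≤ (c * √c)⁻¹ * |x - y| := by
  have hx0 : 0 < x := hc.trans_le hx
  have hy0 : 0 < y := hc.trans_le hy
  have sx : 0 < √x := Real.sqrt_pos.2 hx0
  have sy : 0 < √y := Real.sqrt_pos.2 hy0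
  have sc : 0 < √c := Real.sqrt_pos.2 hc
  have hxs : √c ≤ √x := Real.sqrt_le_sqrt hx
  have hys : √c ≤ √y := Real.sqrt_le_sqrt hy
  have e1 : (√x)⁻¹ - (√y)⁻¹ = (y - x) / ((√x * √y) * (√x + √y)) := by
    have h1 : y - x = (√y - √x) * (√x + √y) := by
      have hx2 := Real.mul_self_sqrt hx0.le
      have hy2 := Real.mul_self_sqrt hy0.le
      linear_combination hx2 - hy2
    rw [h1]
    field_simp
  rw [e1, abs_div, abs_sub_comm, abs_of_pos (by positivity : 0 < (√x * √y) * (√x + √y)),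
    div_eq_inv_mul]
  apply mul_le_mul_of_nonneg_right _ (abs_nonneg _)
  apply inv_anti₀ (by positivity)
  have h2 : c ≤ √x * √y := by
    calc c = √c * √c := (Real.mul_self_sqrt hc.le).symm
      _ ≤ √x * √y := mul_le_mul hxs hys sc.le sx.le
  exact mul_le_mul h2 (by linarith) sc.le (by positivity)

theorem II_bigO {m : ℝ} (h0 : 0 < m) (h1 : m < 1) :
    (fun x => II x - II m) =O[𝓝 m] (fun x => x - m) := by
  set c : ℝ := (1 - m) / 2 with hc
  have hc0 : 0 < c := by rw [hc]; linarith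
  refine IsBigO.of_bound ((c * √c)⁻¹ * |Real.pi - 0|) ?_
  filter_upwards [Ioo_mem_nhds (show m / 2 < m by linarith) (show m < (1 + m) / 2 by linarith)]
    with x hx
  have hx0 : 0 < x := by linarith [hx.1]
  have hx1 : x < 1 := by linarith [hx.2]
  have e1 : II x - II m = ∫ s in (0 : ℝ)..Real.pi, (fI x s - fI m s) := by
    unfold II
    rw [intervalIntegral.integral_sub ((fI_cont hx0 hx1).intervalIntegrable _ _)
      ((fI_cont h0 h1).intervalIntegrable _ _)]
  rw [e1, Real.norm_eq_abs (x - m)]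
  have := intervalIntegral.norm_integral_le_of_norm_le_const (a := (0 : ℝ)) (b := Real.pi)
    (f := fun s => fI x s - fI m s) (C := (c * √c)⁻¹ * |x - m|) (fun s _ => ?_)
  · refine this.trans (le_of_eq ?_); ring
  · rw [Real.norm_eq_abs]
    unfold fI
    have hcos1 := Real.neg_one_le_cos (2 * s)
    have hcos2 := Real.cos_le_one (2 * s)
    have g1 : c ≤ 1 + x * Real.cos (2 * s) := by
      rw [hc]; nlinarith [hx.2]
    have g2 : c ≤ 1 + m * Real.cos (2 * s) := by
      rw [hc]; nlinarith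
    refine (inv_sqrt_lip hc0 g1 g2).trans ?_
    apply mul_le_mul_of_nonneg_left _ (by positivity)
    have : 1 + x * Real.cos (2 * s) - (1 + m * Real.cos (2 * s)) = (x - m) * Real.cos (2 * s) := by
      ring
    rw [this, abs_mul]
    exact mul_le_of_le_one_right (abs_nonneg _) (abs_le.2 ⟨hcos1, hcos2⟩)

theorem JJ_bigO {m : ℝ} (h0 : 0 < m) (h1 : m < 1) :
    (fun x => JJ x - JJ m) =O[𝓝 m] (fun x => x - m) := by
  set c : ℝ := m / 4 with hc
  have hc0 : 0 < c := by rw [hc]; linarith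
  refine IsBigO.of_bound ((c * √c)⁻¹ * |1 - 0|) ?_
  filter_upwards [Ioo_mem_nhds (show m / 2 < m by linarith) (show m < (1 + m) / 2 by linarith)]
    with x hx
  have hx0 : 0 < x := by linarith [hx.1]
  have hx1 : x < 1 := by linarith [hx.2]
  have e1 : JJ x - JJ m = ∫ s in (0 : ℝ)..1, (fJ x s - fJ m s) := by
    unfold JJ
    rw [intervalIntegral.integral_sub ((fJ_cont hx0).intervalIntegrable _ _)
      ((fJ_cont h0).intervalIntegrable _ _)]
  rw [e1, Real.norm_eq_abs (x - m)]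
  have := intervalIntegral.norm_integral_le_of_norm_le_const (a := (0 : ℝ)) (b := 1)
    (f := fun s => fJ x s - fJ m s) (C := (c * √c)⁻¹ * |x - m|) (fun s hs => ?_)
  · refine this.trans (le_of_eq ?_); ring
  · rw [Real.norm_eq_abs]
    unfold fJ
    rw [uIoc_of_le zero_le_one] at hs
    have hs4 : s ^ 4 ≤ 1 := pow_le_one₀ hs.1.le hs.2
    have hs4' : 0 ≤ s ^ 4 := by positivity
    have hs2 : 0 ≤ s ^ 2 := by positivity
    have g1 : c ≤ s ^ 2 + x / 2 * (1 + s ^ 4) := by
      rw [hc]; nlinarith [hx.1]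
    have g2 : c ≤ s ^ 2 + m / 2 * (1 + s ^ 4) := by
      rw [hc]; nlinarith
    refine (inv_sqrt_lip hc0 g1 g2).trans ?_
    apply mul_le_mul_of_nonneg_left _ (by positivity)
    have : s ^ 2 + x / 2 * (1 + s ^ 4) - (s ^ 2 + m / 2 * (1 + s ^ 4)) =
        (x - m) * ((1 + s ^ 4) / 2) := by ring
    rw [this, abs_mul]
    refine mul_le_of_le_one_right (abs_nonneg _) ?_
    rw [abs_of_nonneg (by positivity)]
    linarith

theorem II_pos' {m : ℝ} (h0 : 0 < m) (h1 : m < 1) : 0 < II m := by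
  have := FI_mono h0 h1 Real.pi_pos
  have e4 : FI m 0 = 0 := by unfold FI; simp
  rw [e4] at this
  exact this

theorem JJ_pos' {m : ℝ} (h0 : 0 < m) : 0 < JJ m := by
  unfold JJ
  exact intervalIntegral.intervalIntegral_pos_of_pos ((fJ_cont h0).intervalIntegrable _ _)
    (fun s => fJ_pos h0 s) zero_lt_one

theorem continuousAt_of_bigO {f : ℝ → ℝ} {m : ℝ}
    (h : (fun x => f x - f m) =O[𝓝 m] (fun x => x - m)) : ContinuousAt f m := by
  have h1 : Tendsto (fun x : ℝ => x - m) (𝓝 m) (𝓝 0) := by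
    have : ContinuousAt (fun x : ℝ => x - m) m := by fun_prop
    simpa [ContinuousAt] using this
  have h2 := h.trans_tendsto h1
  have h3 := h2.add_const (f m)
  simpa [ContinuousAt] using h3

/-- `b` as a function of the modulus -/
noncomputable def GG (m : ℝ) : ℝ := JJ m / (2 * II m)

theorem GG_pos {m : ℝ} (h0 : 0 < m) (h1 : m < 1) : 0 < GG m :=
  div_pos (JJ_pos' h0) (by linarith [II_pos' h0 h1])

theorem GG_bigO {m : ℝ} (h0 : 0 < m) (h1 : m < 1) :
    (fun x => GG x - GG m) =O[𝓝 m] (fun x => x - m) := by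
  have cI := continuousAt_of_bigO (II_bigO h0 h1)
  have hI := II_pos' h0 h1
  have e1 : (fun x => GG x - GG m) =ᶠ[𝓝 m]
      (fun x => ((JJ x - JJ m) * II m - JJ m * (II x - II m)) * (2 * II x * II m)⁻¹) := by
    filter_upwards [cI (Ioi_mem_nhds hI)] with x hx
    have hx' : 0 < II x := hx
    unfold GG
    field_simp
    ring
  have e2 : (fun x => (2 * II x * II m)⁻¹) =O[𝓝 m] (fun _ => (1 : ℝ)) := by
    have : ContinuousAt (fun x => (2 * II x * II m)⁻¹) m := by
      refine ContinuousAt.inv₀ ((continuousAt_const.mul cI).mul continuousAt_const) ?_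
      positivity
    exact this.isBigO_one ℝ
  have e3 : (fun x => ((JJ x - JJ m) * II m - JJ m * (II x - II m)) * (2 * II x * II m)⁻¹)
      =O[𝓝 m] (fun x => (x - m) * 1) := by
    refine IsBigO.mul (IsBigO.sub ?_ ?_) e2
    · have := (JJ_bigO h0 h1).const_mul_left (II m)
      simpa only [mul_comm] using this
    · exact (II_bigO h0 h1).const_mul_left (JJ m)
  simp only [mul_one] at e3
  exact e1.trans_isBigO e3

/-- the real modulus -/
noncomputable def gm (b : ℝ) : ℝ := cm b (Et b)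

theorem GG_gm (hE : EFac) (hO : ODE) {b : ℝ} (hb : 0 < b) : GG (gm b) = b := by
  have H := fn_of hE hO hb
  unfold GG gm
  rw [← H.bC_eq, H.C_eq]
  have := H.II_pos
  field_simp

theorem gm_pos (hE : EFac) (hO : ODE) {b : ℝ} (hb : 0 < b) : 0 < gm b := (fn_of hE hO hb).m_pos

theorem gm_lt (hE : EFac) (hO : ODE) {b : ℝ} (hb : 0 < b) : gm b < 1 := (fn_of hE hO hb).m_lt

/-- holomorphy of the derivatives in the parameter -/
theorem diff_e (hE : EFac) : DifferentiableOn ℂ e0 {b : ℂ | 0 < b.re} ∧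
    DifferentiableOn ℂ e1 {b : ℂ | 0 < b.re} := by
  obtain ⟨hJ, -⟩ := hE
  set U : Set (ℂ × ℂ) := {p | 0 < p.2.re ∧ -p.2.re < p.1.im ∧ p.1.im < 3 * p.2.re} with hU
  have hUo : IsOpen U := by
    have c1 : Continuous fun p : ℂ × ℂ => p.2.re := Complex.continuous_re.comp continuous_snd
    have c2 : Continuous fun p : ℂ × ℂ => p.1.im := Complex.continuous_im.comp continuous_fst
    exact (isOpen_lt continuous_const c1).inter
      ((isOpen_lt c1.neg c2).inter (isOpen_lt c2 (continuous_const.mul c1)))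
  have hf : DifferentiableOn ℂ (fun p : ℂ × ℂ => Et p.2 p.1) U := hJ
  have hd := Hol.differentiableOn_fderiv_apply hUo hf ((1 : ℂ), (0 : ℂ))
  have hpart : ∀ t b : ℂ, (t, b) ∈ U →
      deriv (Et b) t = fderiv ℂ (fun p : ℂ × ℂ => Et p.2 p.1) (t, b) ((1 : ℂ), (0 : ℂ)) := by
    intro t b htb
    have h1 : HasFDerivAt (fun p : ℂ × ℂ => Et p.2 p.1)
        (fderiv ℂ (fun p : ℂ × ℂ => Et p.2 p.1) (t, b)) (t, b) :=
      (hf.differentiableAt (hUo.mem_nhds htb)).hasFDerivAt
    have h2 : HasDerivAt (fun s : ℂ => ((s, b) : ℂ × ℂ)) ((1 : ℂ), (0 : ℂ)) t :=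
      (hasDerivAt_id t).prodMk (hasDerivAt_const t b)
    exact (h1.comp_hasDerivAt t h2).deriv
  constructor
  · have h1 : DifferentiableOn ℂ (fun b : ℂ =>
        fderiv ℂ (fun p : ℂ × ℂ => Et p.2 p.1) ((0 : ℂ), b) ((1 : ℂ), (0 : ℂ))) {b : ℂ | 0 < b.re} := by
      have : DifferentiableOn ℂ (fun b : ℂ => (((0 : ℂ), b) : ℂ × ℂ)) {b : ℂ | 0 < b.re} := by
        fun_prop
      refine hd.comp this fun b hb => ?_
      rw [hU, mem_setOf_eq]
      have hb' : 0 < b.re := hb
      simp only [zero_im]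
      exact ⟨hb', by linarith, by linarith⟩
    refine h1.congr fun b hb => ?_
    have hb' : 0 < b.re := hb
    unfold e0
    refine hpart 0 b ?_
    rw [hU, mem_setOf_eq]
    simp only [zero_im]
    exact ⟨hb', by linarith, by linarith⟩
  · have h1 : DifferentiableOn ℂ (fun b : ℂ =>
        fderiv ℂ (fun p : ℂ × ℂ => Et p.2 p.1) (I * b, b) ((1 : ℂ), (0 : ℂ))) {b : ℂ | 0 < b.re} := by
      have : DifferentiableOn ℂ (fun b : ℂ => ((I * b, b) : ℂ × ℂ)) {b : ℂ | 0 < b.re} := by
        fun_prop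
      refine hd.comp this fun b hb => ?_
      rw [hU, mem_setOf_eq]
      have hb' : 0 < b.re := hb
      simp only [mul_im, I_re, zero_mul, I_im, one_mul, zero_add]
      exact ⟨hb', by linarith, by linarith⟩
    refine h1.congr fun b hb => ?_
    have hb' : 0 < b.re := hb
    unfold e1
    refine hpart (I * b) b ?_
    rw [hU, mem_setOf_eq]
    simp only [mul_im, I_re, zero_mul, I_im, one_mul, zero_add]
    exact ⟨hb', by linarith, by linarith⟩

theorem mC_analytic (hE : EFac) (hO : ODE) {b : ℝ} (hb : 0 < b) : AnalyticAt ℂ mC b := by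
  obtain ⟨h0, h1⟩ := diff_e hE
  have ho : IsOpen {b : ℂ | 0 < b.re} := isOpen_lt continuous_const Complex.continuous_re
  have hm : {b : ℂ | 0 < b.re} ∈ 𝓝 (b : ℂ) := ho.mem_nhds (by simpa using hb)
  have a0 := h0.analyticAt hm
  have a1 := h1.analyticAt hm
  have hne : e0 b ^ 2 - 2 * e1 b ^ 2 ≠ 0 := by
    rw [den_eq hE hO hb]
    have := (fn_of hE hO hb).C_pos
    have h2 : (cC b (Et b) ^ 2 : ℝ) ≠ 0 := by positivity
    rw [neg_ne_zero]
    exact_mod_cast h2
  exact (analyticAt_const.mul (a1.pow 2)).div ((a0.pow 2).sub (analyticAt_const.mul (a1.pow 2))) hne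

theorem gm_continuousAt (hE : EFac) (hO : ODE) {b : ℝ} (hb : 0 < b) : ContinuousAt gm b := by
  have h1 : ContinuousAt (fun x : ℝ => (mC x).re) b := by
    have e1 : ContinuousAt mC (b : ℂ) := (mC_analytic hE hO hb).continuousAt
    have e2 : ContinuousAt (fun x : ℝ => mC x) b :=
      ContinuousAt.comp (f := fun x : ℝ => (x : ℂ)) e1 Complex.continuous_ofReal.continuousAt
    exact Complex.continuous_re.continuousAt.comp e2
  refine h1.congr ?_
  filter_upwards [Ioi_mem_nhds hb] with x hx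
  rw [mC_eq hE hO hx, Complex.ofReal_re]
  rfl

theorem mC_deriv_ne (hE : EFac) (hO : ODE) {b : ℝ} (hb : 0 < b) : deriv mC b ≠ 0 := by
  intro h0
  have h1 : HasDerivAt mC 0 (b : ℂ) := by
    rw [← h0]
    exact (mC_analytic hE hO hb).differentiableAt.hasDerivAt
  have h2 : HasDerivAt (fun x : ℝ => mC x) 0 b := h1.comp_ofReal
  have h3 : HasDerivAt (fun x : ℝ => (mC x).re) 0 b := by
    have := Complex.reCLM.hasFDerivAt.comp_hasDerivAt b h2
    rw [map_zero] at this
    exact this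
  have h4 : HasDerivAt gm 0 b := by
    refine h3.congr_of_eventuallyEq ?_
    filter_upwards [Ioi_mem_nhds hb] with x hx
    rw [mC_eq hE hO hx, Complex.ofReal_re]
    rfl
  have h5 := hasDerivAt_iff_isLittleO.1 h4
  simp only [smul_zero, sub_zero] at h5
  have h6 : (fun x => x - b) =O[𝓝 b] (fun x => gm x - gm b) := by
    have e1 := (GG_bigO (gm_pos hE hO hb) (gm_lt hE hO hb)).comp_tendsto
      (gm_continuousAt hE hO hb)
    refine (IsBigO.congr' e1 ?_ EventuallyEq.rfl)
    filter_upwards [Ioi_mem_nhds hb] with x hx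
    simp only [Function.comp]
    rw [GG_gm hE hO hx, GG_gm hE hO hb]
  have h7 := h6.trans_isLittleO h5
  have h8 : ∃ᶠ x in 𝓝[>] b, x - b ≠ 0 := by
    refine Eventually.frequently ?_
    filter_upwards [self_mem_nhdsWithin] with x hx
    have hx' : b < x := hx
    exact (sub_pos.2 hx').ne'
  exact isLittleO_irrefl (h8.filter_mono nhdsWithin_le_nhds) h7

theorem gm_injOn (hE : EFac) (hO : ODE) : InjOn gm (Ioi 0) := fun x hx y hy h => by
  have := congrArg GG h
  rwa [GG_gm hE hO hx, GG_gm hE hO hy] at this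

theorem gm_open (hE : EFac) (hO : ODE) : IsOpen (gm '' Ioi 0) := by
  rw [isOpen_iff_mem_nhds]
  rintro _ ⟨b, hb, rfl⟩
  have hb' : 0 < b := hb
  have hsub : Icc (b / 2) (2 * b) ⊆ Ioi (0 : ℝ) := fun x hx => by
    have := hx.1
    show 0 < x
    linarith
  have hc : ContinuousOn gm (Icc (b / 2) (2 * b)) := fun x hx =>
    (gm_continuousAt hE hO (hsub hx)).continuousWithinAt
  have hinj : InjOn gm (Icc (b / 2) (2 * b)) := (gm_injOn hE hO).mono hsub
  have m1 : b / 2 ∈ Icc (b / 2) (2 * b) := ⟨le_rfl, by linarith⟩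
  have m2 : b ∈ Icc (b / 2) (2 * b) := ⟨by linarith, by linarith⟩
  have m3 : 2 * b ∈ Icc (b / 2) (2 * b) := ⟨by linarith, le_rfl⟩
  rcases ContinuousOn.strictMonoOn_of_injOn_Icc' (by linarith : b / 2 ≤ 2 * b) hc hinj with hm | hm
  · have e1 := hm m1 m2 (by linarith)
    have e2 := hm m2 m3 (by linarith)
    refine mem_of_superset (Icc_mem_nhds e1 e2) ?_
    refine (intermediate_value_Icc (by linarith) hc).trans (image_mono hsub)
  · have e1 := hm m1 m2 (by linarith)
    have e2 := hm m2 m3 (by linarith)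
    refine mem_of_superset (Icc_mem_nhds e2 e1) ?_
    refine (intermediate_value_Icc' (by linarith) hc).trans (image_mono hsub)

theorem gm_surj (hE : EFac) (hO : ODE) : Ioo (0 : ℝ) 1 ⊆ gm '' Ioi 0 := by
  refine isPreconnected_Ioo.subset_of_closure_inter_subset (gm_open hE hO) ?_ ?_
  · exact ⟨gm 1, ⟨gm_pos hE hO one_pos, gm_lt hE hO one_pos⟩, 1, mem_Ioi.2 one_pos, rfl⟩
  · rintro m ⟨hm1, hm2⟩
    have hG := GG_pos hm2.1 hm2.2
    have cG := continuousAt_of_bigO (GG_bigO hm2.1 hm2.2)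
    have c2 : ContinuousAt (fun x => gm (GG x)) m :=
      ContinuousAt.comp (f := GG) (gm_continuousAt hE hO hG) cG
    refine ⟨GG m, hG, ?_⟩
    -- `gm (GG x) = x` on the image
    obtain ⟨u, hu1, hu2⟩ := mem_closure_iff_seq_limit.1 hm1
    have h1 : Tendsto (fun n => gm (GG (u n))) atTop (𝓝 (gm (GG m))) := c2.tendsto.comp hu2
    have h2 : (fun n => gm (GG (u n))) = u := by
      funext n
      obtain ⟨b, hb, hbn⟩ := hu1 n
      rw [← hbn, GG_gm hE hO hb]
    rw [h2] at h1
    exact tendsto_nhds_unique h1 hu2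

theorem per (hE : EFac) (hO : ODE) : PER := by
  intro m h0 h1
  obtain ⟨b, hb, hm⟩ := gm_surj hE hO ⟨h0, h1⟩
  refine ⟨b, hb, ?_, mC_analytic hE hO hb, mC_deriv_ne hE hO hb⟩
  rw [mC_eq hE hO hb]
  exact_mod_cast hm

end Vale.Agent.P097.H807
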